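import Vale.Agent.P184.Bdl.B4

namespace Vale.Agent.Results.P184.General

open Vale.Agent.P184.W

universe u v w

/-- New cases of the `ℓ¹`-Bass conjecture. -/
theorem result :
    (∀ (G : Type u) [Group G], (Nice G ∨ LimBass.{u, v} G → L1Bass G) ∧
      (∀ x : G, Mild x → VanishesAt x) ∧ (AlmostAmen G → Nice G)) ∧
    (∀ (G : Type u) [Group G] (ι : Type v) (H : ι → Subgroup G), IsRelHyp H →
      ((∀ k, MildInf (H k)) → MildInf G) ∧ ((∀ k, Nice (H k)) → Nice G)) ∧
    (∀ (G : Type u) [Group G] (X : Type v) [MetricSpace X] [MulAction G X],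
      Cat0Action G X → Nice G) ∧
    (∀ (G : Type u) [Group G] (x : G) (K : Type v) [Field K],
      PolyNilpotent x ∨ LinDetected x K → Mild x) ∧
    ∀ (G : Type u) [Group G] (K : Type v) [Group K], (Nice G → Nice K → Nice (G × K)) ∧
      ∀ (x : G) (y : K), Image x y → Mild y → Mild x :=
  ⟨fun _ _ => ⟨fun h => h.elim l1Bass_of_nice l1Bass_of_lifts, fun _ => vanishesAt_of_mild,
      nice_of_almostAmen⟩,
    fun _ _ _ _ h => ⟨relHyp_mild h, relHyp_nice h⟩, fun _ _ _ _ _ => nice_of_cat,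
    fun _ _ _ _ _ h => h.elim mild_of_polyNilpotent mild_of_linDetected,
    fun _ _ _ _ => ⟨nice_prod, fun _ _ => mild_image⟩⟩

end Vale.Agent.Results.P184.General
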