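import Vale.Agent.P184.SMain

namespace Vale.Agent.Results.P184.Strong

open Vale.Agent.P184.S

universe u v

/-- New cases of the `ℓ¹`-Bass conjecture and of its stronger form, which deals with the pairing
of the idempotents with all cyclic cocycles localised at classes of infinite order. -/
theorem result :
    (∀ (G : Type u) [Group G], (∀ x : G, ¬ IsOfFinOrder x → LocTame x) →
      (Group.FG G → StrongBass G) ∧
      ((∀ S : Finset G, FinTors (Subgroup.closure (S : Set G))) → L1Bass G)) ∧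
    (∀ (G : Type u) [Group G] (x : G), (LocTame x → VanishesAt x) ∧ (TameAt x →
      ∃ L₀ : G → ℝ, IsLen L₀ ∧ ∀ L, IsLen L → (∃ c : ℝ, ∀ g, L₀ g ≤ c * L g) → StrongAt L x)) ∧
    (∀ (G : Type u) [Group G] (ι : Type v) (H : ι → Subgroup G), IsRelHyp H →
      (∀ k (y : H k), ¬ IsOfFinOrder y → LocTame y) →
      (∀ x : G, ¬ IsOfFinOrder x → LocTame x) ∧ (Group.FG G → StrongBass G) ∧
      ((∀ k, FinTors (H k)) → FinTors G ∧ L1Bass G)) ∧
    ∀ (G : Type u) [Group G] (x : G), (PolyNilpotent x ∨ VirtUnipotent x ∨ LocCharged x →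
      LocTame x) ∧ ∀ (K : Type v) [Group K] (y : K), Image x y → LocTame y → LocTame x :=
  ⟨fun _ _ h => ⟨(strongBass_of_loc · h), l1Bass_of_locTame h⟩,
    fun _ _ _ => ⟨vanishesAt_of_loc, strongAt_of_tame⟩, fun _ _ _ _ => relHyp_all,
    fun _ _ _ => ⟨loc_of, fun _ _ _ => loc_of_image⟩⟩

end Vale.Agent.Results.P184.Strong
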